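import Vale.Agent.P003.Mertens

/-!
# Mertens' second theorem (bounded error form)

`∑_{p ≤ z} 1/p = log log z + O(1)`, by Abel summation from Mertens' first theorem.
-/

namespace Vale.Agent.P031

open Finset Real
open Vale.Agent.P003

/-- sum of `1/p` over primes `p ≤ n`. -/
noncomputable def recipSum (n : ℕ) : ℝ := ∑ p ∈ PLE n, (1 : ℝ) / p

/-- sum of `log p / p` over primes `p ≤ n`. -/
noncomputable def logSum (n : ℕ) : ℝ := ∑ p ∈ PLE n, Real.log p / p

theorem PLE_succ_prime {n : ℕ} (h : (n + 1).Prime) :
    PLE (n + 1) = insert (n + 1) (PLE n) := by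
  ext p
  simp only [mem_PLE, Finset.mem_insert]
  constructor
  · rintro ⟨h1, h2⟩
    rcases Nat.lt_or_ge n p with h3 | h3
    · left; omega
    · right; exact ⟨h3, h2⟩
  · rintro (rfl | ⟨h1, h2⟩)
    · exact ⟨le_refl _, h⟩
    · exact ⟨by omega, h2⟩

theorem PLE_succ_not_prime {n : ℕ} (h : ¬ (n + 1).Prime) :
    PLE (n + 1) = PLE n := by
  ext p
  simp only [mem_PLE]
  constructor
  · rintro ⟨h1, h2⟩
    refine ⟨?_, h2⟩
    rcases Nat.lt_or_ge n p with h3 | h3
    · have : p = n + 1 := by omega
      subst this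
      exact absurd h2 h
    · exact h3
  · rintro ⟨h1, h2⟩
    exact ⟨by omega, h2⟩

theorem recipSum_succ (n : ℕ) (hn : 2 ≤ n) :
    recipSum (n + 1) - recipSum n = (logSum (n + 1) - logSum n) / Real.log ((n : ℝ) + 1) := by
  have hlog : 0 < Real.log ((n : ℝ) + 1) := by
    apply Real.log_pos
    have : (2 : ℝ) ≤ n := by exact_mod_cast hn
    linarith
  by_cases h : (n + 1).Prime
  · have hnot : n + 1 ∉ PLE n := by
      rw [mem_PLE]; rintro ⟨h1, _⟩; omega
    unfold recipSum logSum
    rw [PLE_succ_prime h, Finset.sum_insert hnot, Finset.sum_insert hnot]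
    push_cast
    have hn1 : (n : ℝ) + 1 ≠ 0 := by positivity
    field_simp
    ring
  · unfold recipSum logSum
    rw [PLE_succ_not_prime h]
    simp

theorem logSum_le (n : ℕ) (hn : 1 ≤ n) : logSum n ≤ Real.log n + 4 := by
  have h := sum_log_div_le n hn
  have h4 : Real.log 4 ≤ 4 := by
    have := Real.log_le_sub_one_of_pos (x := (4 : ℝ)) (by norm_num)
    linarith
  unfold logSum
  linarith

theorem logSum_ge (n : ℕ) (hn : 1 ≤ n) : Real.log n - 4 ≤ logSum n :=
  sum_log_div_ge n hn

theorem recipSum_two : recipSum 2 = 1 / 2 := by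
  have : PLE 2 = {2} := by
    ext p
    rw [mem_PLE, Finset.mem_singleton]
    constructor
    · rintro ⟨h1, h2⟩
      have := h2.two_le
      omega
    · rintro rfl
      exact ⟨le_refl _, Nat.prime_two⟩
  unfold recipSum
  rw [this, Finset.sum_singleton]
  norm_num

theorem logSum_two : logSum 2 = Real.log 2 / 2 := by
  have : PLE 2 = {2} := by
    ext p
    rw [mem_PLE, Finset.mem_singleton]
    constructor
    · rintro ⟨h1, h2⟩
      have := h2.two_le
      omega
    · rintro rfl
      exact ⟨le_refl _, Nat.prime_two⟩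
  unfold logSum
  rw [this, Finset.sum_singleton]
  norm_num

theorem log_facts (n : ℕ) (hn : 2 ≤ n) :
    0 < Real.log n ∧ Real.log n < Real.log ((n : ℝ) + 1) ∧
      Real.log ((n : ℝ) + 1) ≤ Real.log n + 1 := by
  have h2 : (2 : ℝ) ≤ n := by exact_mod_cast hn
  refine ⟨Real.log_pos (by linarith), Real.log_lt_log (by linarith) (by linarith), ?_⟩
  have h3 : (n : ℝ) + 1 = n * (1 + 1 / n) := by
    field_simp
  rw [h3, Real.log_mul (by positivity) (by positivity)]
  have h4 := Real.log_le_sub_one_of_pos (x := 1 + 1 / (n : ℝ)) (by positivity)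
  have h5 : (1 : ℝ) / n ≤ 1 := by
    rw [div_le_one (by linarith)]; linarith
  linarith

theorem recipSum_upper (n : ℕ) (hn : 2 ≤ n) :
    recipSum n ≤ logSum n / Real.log n + (Real.log (Real.log n) - Real.log (Real.log 2))
      + 4 * (1 / Real.log 2 - 1 / Real.log n) := by
  induction n, hn using Nat.le_induction with
  | base =>
    rw [recipSum_two, logSum_two]
    have := Real.log_two_gt_d9
    push_cast
    have h : Real.log 2 / 2 / Real.log 2 = 1 / 2 := by
      have : Real.log 2 ≠ 0 := by linarith
      field_simp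
    rw [h]
    simp
  | succ n hn ih =>
    have hs := recipSum_succ n hn
    obtain ⟨ha, hab, hb⟩ := log_facts n hn
    have hA := logSum_le n (by omega)
    push_cast
    set a := Real.log n with ha_def
    set b := Real.log ((n : ℝ) + 1) with hb_def
    have hb0 : 0 < b := by linarith
    have h1 : 0 ≤ 1 / a - 1 / b := by
      have := one_div_le_one_div_of_le ha hab.le
      linarith
    have h2 : logSum n * (1 / a - 1 / b) ≤ (a + 4) * (1 / a - 1 / b) :=
      mul_le_mul_of_nonneg_right hA h1
    have h3 : a * (1 / a - 1 / b) ≤ Real.log b - Real.log a := by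
      have e1 : a * (1 / a - 1 / b) = 1 - a / b := by
        field_simp
      have h4 := Real.log_le_sub_one_of_pos (x := a / b) (by positivity)
      rw [Real.log_div ha.ne' hb0.ne'] at h4
      rw [e1]
      linarith
    have e2 : logSum (n + 1) / b = logSum n / a + (logSum (n + 1) - logSum n) / b
        - logSum n * (1 / a - 1 / b) := by
      field_simp
      ring
    rw [e2]
    nlinarith

theorem recipSum_lower (n : ℕ) (hn : 2 ≤ n) :
    logSum n / Real.log n + (Real.log (Real.log n) - Real.log (Real.log 2))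
      - 5 * (1 / Real.log 2 - 1 / Real.log n) ≤ recipSum n := by
  induction n, hn using Nat.le_induction with
  | base =>
    rw [recipSum_two, logSum_two]
    have := Real.log_two_gt_d9
    push_cast
    have h : Real.log 2 / 2 / Real.log 2 = 1 / 2 := by
      have : Real.log 2 ≠ 0 := by linarith
      field_simp
    rw [h]
    simp
  | succ n hn ih =>
    have hs := recipSum_succ n hn
    obtain ⟨ha, hab, hb⟩ := log_facts n hn
    have hA := logSum_ge n (by omega)
    push_cast
    set a := Real.log n with ha_def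
    set b := Real.log ((n : ℝ) + 1) with hb_def
    have hb0 : 0 < b := by linarith
    have h1 : 0 ≤ 1 / a - 1 / b := by
      have := one_div_le_one_div_of_le ha hab.le
      linarith
    have h2 : (a - 4) * (1 / a - 1 / b) ≤ logSum n * (1 / a - 1 / b) :=
      mul_le_mul_of_nonneg_right hA h1
    have h3 : Real.log b - Real.log a ≤ (a + 1) * (1 / a - 1 / b) := by
      have h4 := Real.log_le_sub_one_of_pos (x := b / a) (by positivity)
      rw [Real.log_div hb0.ne' ha.ne'] at h4
      have h5 : b / a - 1 ≤ (a + 1) * (1 / a - 1 / b) := by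
        have e1 : (a + 1) * (1 / a - 1 / b) - (b / a - 1) = (a + 1 - b) * (b - a) / (a * b) := by
          field_simp
        have : 0 ≤ (a + 1 - b) * (b - a) / (a * b) := by
          apply div_nonneg
          · apply mul_nonneg <;> linarith
          · positivity
        linarith
      linarith
    have e2 : logSum (n + 1) / b = logSum n / a + (logSum (n + 1) - logSum n) / b
        - logSum n * (1 / a - 1 / b) := by
      field_simp
      ring
    rw [e2]
    nlinarith

theorem logSum_div_bounds (n : ℕ) (hn : 2 ≤ n) :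
    -6 ≤ logSum n / Real.log n ∧ logSum n / Real.log n ≤ 8 := by
  obtain ⟨ha, -, -⟩ := log_facts n hn
  have h1 := logSum_le n (by omega)
  have h2 := logSum_ge n (by omega)
  have h3 : Real.log 2 ≤ Real.log n := Real.log_le_log (by norm_num) (by exact_mod_cast hn)
  have h4 := Real.log_two_gt_d9
  constructor
  · rw [le_div_iff₀ ha]; nlinarith
  · rw [div_le_iff₀ ha]; nlinarith

theorem recipSum_near (n : ℕ) (hn : 2 ≤ n) :
    |recipSum n - Real.log (Real.log n)| ≤ 20 := by
  have h1 := recipSum_upper n hn
  have h2 := recipSum_lower n hn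
  obtain ⟨h3, h4⟩ := logSum_div_bounds n hn
  obtain ⟨ha, -, -⟩ := log_facts n hn
  have hl2 := Real.log_two_gt_d9
  have hl2' := Real.log_two_lt_d9
  have h5 : 1 / Real.log 2 ≤ 2 := by
    rw [div_le_iff₀ (by linarith)]; linarith
  have h6 : 0 ≤ 1 / Real.log n := by positivity
  have h7 : 1 / Real.log n ≤ 1 / Real.log 2 := by
    apply one_div_le_one_div_of_le (by linarith)
    exact Real.log_le_log (by norm_num) (by exact_mod_cast hn)
  have h8 : Real.log (Real.log 2) ≤ 0 := Real.log_nonpos (by linarith) (by linarith)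
  have h9 : -1 ≤ Real.log (Real.log 2) := by
    rw [Real.le_log_iff_exp_le (by linarith)]
    have : Real.exp (-1) ≤ 1 / 2 := by
      rw [Real.exp_neg]
      have := Real.exp_one_gt_d9
      rw [inv_eq_one_div]
      apply one_div_le_one_div_of_le <;> linarith
    linarith
  rw [abs_le]
  constructor <;> linarith

/-- **Mertens' second theorem**, bounded error form:
`|∑_{p ≤ z} 1/p - log log z| ≤ C` for all real `z ≥ 3`. -/
theorem mertens_explicit (z : ℝ) (hz : 3 ≤ z) :
    |∑ p ∈ (Finset.range (⌊z⌋₊ + 1)).filter Nat.Prime, (1 : ℝ) / p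
      - Real.log (Real.log z)| ≤ 21 := by
  set n := ⌊z⌋₊ with hn_def
  have hn3 : 3 ≤ n := Nat.le_floor (by exact_mod_cast hz)
  have h1 := recipSum_near n (by omega)
  obtain ⟨ha, hab, hb⟩ := log_facts n (by omega)
  have hn3r : (3 : ℝ) ≤ n := by exact_mod_cast hn3
  have h2 : (n : ℝ) ≤ z := Nat.floor_le (by linarith)
  have h3 : z < (n : ℝ) + 1 := Nat.lt_floor_add_one z
  have h4 : Real.log n ≤ Real.log z := Real.log_le_log (by linarith) h2
  have h5 : Real.log z ≤ Real.log ((n : ℝ) + 1) := Real.log_le_log (by linarith) h3.le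
  have h1n : 1 ≤ Real.log n := by
    rw [Real.le_log_iff_exp_le (by linarith)]
    have := Real.exp_one_lt_d9
    linarith
  have h6 : Real.log (Real.log n) ≤ Real.log (Real.log z) := Real.log_le_log ha h4
  have h7 : Real.log (Real.log z) ≤ Real.log (Real.log n) + 1 := by
    have h8 := Real.log_le_sub_one_of_pos (x := Real.log z / Real.log n) (by
      apply div_pos _ ha; linarith)
    rw [Real.log_div (by linarith) ha.ne'] at h8
    have h9 : Real.log z / Real.log n ≤ 2 := by
      rw [div_le_iff₀ ha]; linarith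
    linarith
  have e : ∑ p ∈ (Finset.range (n + 1)).filter Nat.Prime, (1 : ℝ) / p = recipSum n := rfl
  rw [e]
  rw [abs_le] at h1 ⊢
  constructor <;> linarith [h1.1, h1.2]

/-- **Mertens' second theorem**, bounded error form. -/
theorem mertens : ∃ C : ℝ, ∀ z : ℝ, 3 ≤ z →
    |∑ p ∈ (Finset.range (⌊z⌋₊ + 1)).filter Nat.Prime, (1 : ℝ) / p
      - Real.log (Real.log z)| ≤ C :=
  ⟨21, mertens_explicit⟩

end Vale.Agent.P031
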